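import Mathlib

/-!
# Numerics for the outer local bound
-/

namespace Vale.Agent.P336.R2.H81

/-- Facts on `Z = 2 ^ p * (p + 1) ^ w`. -/
theorem z_facts (w p : ℕ) (hw : 1 ≤ w) (hp : 1 ≤ p) :
    4 ≤ 2 ^ p * (p + 1) ^ w ∧ p + 1 ≤ 2 ^ p * (p + 1) ^ w ∧ w ≤ 2 ^ p * (p + 1) ^ w ∧
      (p + 1) ^ w ≤ 2 ^ p * (p + 1) ^ w := by
  have h1 : p + 1 ≤ 2 ^ p := Nat.lt_two_pow_self
  have h2 : p + 1 ≤ (p + 1) ^ w := Nat.le_self_pow (by omega) _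
  have h3 : 2 ^ w ≤ (p + 1) ^ w := Nat.pow_le_pow_left (by omega) _
  have h4 : w < 2 ^ w := Nat.lt_two_pow_self
  have h5 : 1 ≤ 2 ^ p := Nat.one_le_two_pow
  have h6 : 1 ≤ (p + 1) ^ w := Nat.one_le_pow _ _ (by omega)
  generalize 2 ^ p = A at h1 h5
  generalize (p + 1) ^ w = B at h2 h3 h6
  refine ⟨?_, ?_, ?_, ?_⟩ <;> nlinarith

theorem numerics_outer_local (K : ℕ) : ∃ K' : ℕ, 1 ≤ K' ∧ ∀ N w k p r : ℕ,
    1 ≤ w → 1 ≤ k → 1 ≤ p → 1 ≤ r →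
    k * (2 ^ p * (p + 1) ^ w) ^ K' ≤ N → r * (2 ^ p * (p + 1) ^ w) ^ K' ≤ N →
    (p + 1) * (N / 4 / (p + 1)) ≤ N / 4 ∧ p + 1 ≤ N / 4 ∧ 1 ≤ N / 4 / (p + 1) ∧
    4 * w * k * (p + 1) ^ (2 * w + 1) < N / 4 / (p + 1) ∧
    r * ((2 * (p + 1) ^ w) * 2 ^ (p + 1)) ^ K ≤ N / 4 / (p + 1) ∧
    (N : ℝ) / (r * ((2 : ℝ) ^ p * (p + 1) ^ w) ^ K') ≤
      ((N / 4 / (p + 1) : ℕ) : ℝ) / (r * (((2 * (p + 1) ^ w : ℕ) : ℝ) * 2 ^ (p + 1)) ^ K) := by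
  refine ⟨2 * K + 8, by omega, fun N w k p r hw hk hp hr hN hR => ?_⟩
  obtain ⟨z4, zp, zw, zb⟩ := z_facts w p hw hp
  have he : (p + 1) ^ (2 * w + 1) = ((p + 1) ^ w) ^ 2 * (p + 1) := by ring
  have h4Z : (2 * (p + 1) ^ w) * 2 ^ (p + 1) = 4 * (2 ^ p * (p + 1) ^ w) := by ring
  have hc1 : ((2 : ℝ) ^ p * (p + 1) ^ w) = ((2 ^ p * (p + 1) ^ w : ℕ) : ℝ) := by
    push_cast
    ring
  have hc2 : (((2 * (p + 1) ^ w : ℕ) : ℝ) * 2 ^ (p + 1)) =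
      ((4 * (2 ^ p * (p + 1) ^ w) : ℕ) : ℝ) := by
    push_cast
    ring
  rw [hc1, hc2, h4Z, he]
  generalize hZ : 2 ^ p * (p + 1) ^ w = Z at *
  have hfour : 4 * (p + 1) ≤ Z * Z := Nat.mul_le_mul z4 zp
  have hZ1 : 1 ≤ Z := by omega
  -- lower bounds for `M`
  have hlow : ∀ a : ℕ, a * Z ^ (2 * K + 8) ≤ N → a * Z ^ (2 * K + 6) ≤ N / 4 / (p + 1) := by
    intro a ha
    rw [Nat.div_div_eq_div_mul]
    refine (Nat.le_div_iff_mul_le (by positivity)).2 ?_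
    calc a * Z ^ (2 * K + 6) * (4 * (p + 1)) ≤ a * Z ^ (2 * K + 6) * (Z * Z) := by gcongr
      _ = a * Z ^ (2 * K + 8) := by ring
      _ ≤ N := ha
  have hm := hlow k hN
  have hr' := hlow r hR
  have hZp : ∀ j : ℕ, 1 ≤ Z ^ j := fun j => Nat.one_le_pow _ _ (by omega)
  have hm1 : 1 ≤ N / 4 / (p + 1) := le_trans (by nlinarith [hZp (2 * K + 6)]) hm
  have h4pow : (4 * Z) ^ K ≤ Z ^ (2 * K) := by
    calc (4 * Z) ^ K ≤ (Z * Z) ^ K := Nat.pow_le_pow_left (Nat.mul_le_mul_right _ z4) _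
      _ = Z ^ (2 * K) := by ring
  refine ⟨Nat.mul_div_le _ _, ?_, hm1, ?_, ?_, ?_⟩
  · have := (Nat.le_div_iff_mul_le (by omega)).1 hm1
    omega
  · refine lt_of_lt_of_le ?_ hm
    calc 4 * w * k * (((p + 1) ^ w) ^ 2 * (p + 1)) ≤ Z * Z * k * (Z ^ 2 * Z) := by gcongr
      _ = k * Z ^ 5 := by ring
      _ < k * Z ^ (2 * K + 6) := by
        have h1 : Z ^ 5 < Z ^ (2 * K + 6) := Nat.pow_lt_pow_right (by omega) (by omega)
        exact Nat.mul_lt_mul_of_pos_left h1 hk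
  · refine le_trans ?_ hr'
    have : Z ^ (2 * K) ≤ Z ^ (2 * K + 6) := Nat.pow_le_pow_right hZ1 (by omega)
    exact Nat.mul_le_mul_left _ (h4pow.trans this)
  · have hNM : N ≤ 2 * (N / 4 / (p + 1)) * (Z * Z) := by
      have h1 : N < (4 * (p + 1)) * (N / (4 * (p + 1)) + 1) :=
        Nat.lt_mul_div_succ N (by positivity)
      rw [← Nat.div_div_eq_div_mul] at h1
      generalize N / 4 / (p + 1) = M at h1 hm1
      calc N ≤ (4 * (p + 1)) * (M + 1) := h1.le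
        _ ≤ (Z * Z) * (2 * M) := Nat.mul_le_mul hfour (by omega)
        _ = 2 * M * (Z * Z) := by ring
    generalize N / 4 / (p + 1) = M at *
    have hnat : N * (r * (4 * Z) ^ K) ≤ M * (r * Z ^ (2 * K + 8)) := by
      calc N * (r * (4 * Z) ^ K) ≤ (2 * M * (Z * Z)) * (r * Z ^ (2 * K)) :=
            Nat.mul_le_mul hNM (Nat.mul_le_mul_left _ h4pow)
        _ = 2 * (M * r * Z ^ (2 * K + 2)) := by ring
        _ ≤ Z * (M * r * Z ^ (2 * K + 2)) := Nat.mul_le_mul_right _ (by omega)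
        _ = M * r * Z ^ (2 * K + 3) := by ring
        _ ≤ M * r * Z ^ (2 * K + 8) :=
            Nat.mul_le_mul_left _ (Nat.pow_le_pow_right hZ1 (by omega))
        _ = M * (r * Z ^ (2 * K + 8)) := by ring
    have hrR : (0 : ℝ) < r := by exact_mod_cast hr
    have hZR : (0 : ℝ) < Z := by exact_mod_cast hZ1
    have h4R : (0 : ℝ) < ((4 * Z : ℕ) : ℝ) := by
      have : 0 < 4 * Z := by omega
      exact_mod_cast this
    rw [div_le_div_iff₀ (by positivity) (by positivity)]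
    exact_mod_cast hnat

end Vale.Agent.P336.R2.H81
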