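import Vale.Agent.P336.R2.H746.CylSpec
import Vale.Agent.P336.R2.H836.WideViews

/-!
# P336: a wide bottom gate is almost always true on the words of the cylinder language

A bottom gate which reads at least `R` variables is false on a random word with probability at
most `2 ^ -(R - 2 * q)`.
-/

namespace Vale.Agent.P336.R2.H81

open Finset Vale.Agent.P336.Cyl
open scoped BigOperators

/-- The letter of the word in a position of `s`. -/
theorem word_s {N q p ρ r : ℕ} (s : Fin r → ZMod 2) (x : Fin (N - (2 * q + r)) → ZMod 2)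
    (t : Fin N) (d : Fin r) (h : (t : ℕ) = 2 * q + d) :
    word N q p ρ r s x t = decide (s d = 1) := by
  have hd := d.isLt
  unfold word
  rw [if_neg (by omega), if_neg (by omega), dif_pos (by omega)]
  have h1 : (⟨(t : ℕ) - 2 * q, by omega⟩ : Fin r) = d := Fin.ext (by simp only; omega)
  rw [h1]

/-- The letter of the word in a position of `x`. -/
theorem word_x {N q p ρ r : ℕ} (s : Fin r → ZMod 2) (x : Fin (N - (2 * q + r)) → ZMod 2)
    (t : Fin N) (v : Fin (N - (2 * q + r))) (h : (t : ℕ) = 2 * q + r + v) :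
    word N q p ρ r s x t = decide (x v = 1) := by
  have hv := v.isLt
  unfold word
  rw [if_neg (by omega), if_neg (by omega), dif_neg (by omega), dif_pos (by omega)]
  have h1 : (⟨(t : ℕ) - (2 * q + r), by omega⟩ : Fin (N - (2 * q + r))) = v :=
    Fin.ext (by simp only; omega)
  rw [h1]

theorem zmod2_eq_of_decide {a b : ZMod 2} (h : decide (a = 1) = decide (b = 1)) : a = b := by
  revert a b
  decide

/-- A literal which is false at two assignments has the same letter in both. -/
theorem eq_of_reads' {N : ℕ} (l : Lit N) {v : Fin N} (hv : l.Reads v) {w w' : Fin N → Bool}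
    (h : l.eval w ≠ true) (h' : l.eval w' ≠ true) : w v = w' v := by
  cases l with
  | pos i =>
    have hv' : v = i := hv
    subst hv'
    have h1 : w v ≠ true := h
    have h2 : w' v ≠ true := h'
    rw [Bool.eq_false_of_not_eq_true h1, Bool.eq_false_of_not_eq_true h2]
  | neg i =>
    have hv' : v = i := hv
    subst hv'
    have h1 : (!(w v)) ≠ true := h
    have h2 : (!(w' v)) ≠ true := h'
    revert h1 h2
    cases w v <;> cases w' v <;> simp
  | const b => exact absurd hv id

/-- The probability that two assignments agree on a set. -/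
theorem expect_agree {V : Type*} [Fintype V] [DecidableEq V] (A : Finset V) (x : V → ZMod 2)
    [∀ z : V → ZMod 2, Decidable (∀ v ∈ A, z v = x v)] :
    (𝔼 z : V → ZMod 2, if ∀ v ∈ A, z v = x v then (1 : ℝ) else 0) = (1 / 2) ^ A.card := by
  have h1 : (∑ z : V → ZMod 2, if ∀ v ∈ A, z v = x v then (1 : ℝ) else 0) =
      ∏ v : V, ∑ b : ZMod 2, if v ∈ A then (if b = x v then (1 : ℝ) else 0) else 1 := by
    rw [Finset.prod_univ_sum, Fintype.piFinset_univ]
    refine Finset.sum_congr rfl fun z _ => ?_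
    by_cases h : ∀ v ∈ A, z v = x v
    · rw [if_pos h]
      refine (Finset.prod_eq_one fun v _ => ?_).symm
      by_cases hv : v ∈ A
      · rw [if_pos hv, if_pos (h v hv)]
      · rw [if_neg hv]
    · rw [if_neg h]
      push Not at h
      obtain ⟨v, hv, hne⟩ := h
      refine (Finset.prod_eq_zero (Finset.mem_univ v) ?_).symm
      rw [if_pos hv, if_neg hne]
  have h2 : ∀ v : V, (∑ b : ZMod 2, if v ∈ A then (if b = x v then (1 : ℝ) else 0) else 1) =
      2 * (if v ∈ A then 1 / 2 else 1) := by
    intro v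
    by_cases hv : v ∈ A
    · simp [hv]
    · simp [hv, ZMod.card]
  rw [Fintype.expect_eq_sum_div_card, h1, Finset.prod_congr rfl fun v _ => h2 v,
    Finset.prod_mul_distrib, Finset.prod_const, Finset.card_univ, Fintype.card_fun, ZMod.card]
  have h3 : (∏ v : V, if v ∈ A then (1 / 2 : ℝ) else 1) = (1 / 2) ^ A.card := by
    rw [Finset.prod_ite_mem, Finset.univ_inter, Finset.prod_const]
  rw [h3]
  push_cast
  rw [mul_comm, mul_div_assoc, div_self (by positivity), mul_one]

open Classical in
/-- The bound when the assignments on which the gate is false agree on `T`. -/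
theorem cyl_prob_le {N q p ρ r : ℕ} (P : (Fin N → Bool) → Prop)
    (T : Finset (Fin N)) (hT : ∀ t ∈ T, ¬ (t : ℕ) < 2 * q)
    (hP : ∀ w w', ¬ P w → ¬ P w' → ∀ t ∈ T, w t = w' t) :
    (𝔼 s : Fin r → ZMod 2, 𝔼 x : Fin (N - (2 * q + r)) → ZMod 2,
      (if P (word N q p ρ r s x) then (0 : ℝ) else 1)) ≤ (1 / 2) ^ T.card := by
  by_cases hex : ∃ (s : Fin r → ZMod 2) (x : Fin (N - (2 * q + r)) → ZMod 2),
      ¬ P (word N q p ρ r s x)
  · obtain ⟨s0, x0, h0⟩ := hex
    set As : Finset (Fin r) := univ.filter fun d => ∃ t ∈ T, (t : ℕ) = 2 * q + d with hAs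
    set Ax : Finset (Fin (N - (2 * q + r))) :=
      univ.filter fun v => ∃ t ∈ T, (t : ℕ) = 2 * q + r + v with hAx
    have hcov : T.image (fun t : Fin N => (t : ℕ)) ⊆
        As.image (fun d : Fin r => 2 * q + (d : ℕ)) ∪
          Ax.image (fun v : Fin (N - (2 * q + r)) => 2 * q + r + (v : ℕ)) := by
      intro n hn
      obtain ⟨t, ht, rfl⟩ := mem_image.1 hn
      have h1 := hT t ht
      have h2 := t.isLt
      by_cases h3 : (t : ℕ) - 2 * q < r
      · refine mem_union_left _ (mem_image.2 ⟨⟨(t : ℕ) - 2 * q, h3⟩, ?_, ?_⟩)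
        · exact mem_filter.2 ⟨mem_univ _, t, ht, by simp only; omega⟩
        · simp only
          omega
      · refine mem_union_right _ (mem_image.2
          ⟨⟨(t : ℕ) - (2 * q + r), by omega⟩, ?_, ?_⟩)
        · exact mem_filter.2 ⟨mem_univ _, t, ht, by simp only; omega⟩
        · simp only
          omega
    have hcard : T.card ≤ As.card + Ax.card := by
      rw [← card_image_of_injective T Fin.val_injective]
      exact (card_le_card hcov).trans ((card_union_le _ _).trans
        (Nat.add_le_add card_image_le card_image_le))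
    have hle : ∀ (s : Fin r → ZMod 2) (x : Fin (N - (2 * q + r)) → ZMod 2),
        (if P (word N q p ρ r s x) then (0 : ℝ) else 1) ≤
          (if ∀ d ∈ As, s d = s0 d then (1 : ℝ) else 0) *
            (if ∀ v ∈ Ax, x v = x0 v then (1 : ℝ) else 0) := by
      intro s x
      by_cases hPw : P (word N q p ρ r s x)
      · rw [if_pos hPw]
        positivity
      · rw [if_neg hPw]
        have hag := hP _ _ hPw h0
        rw [if_pos, if_pos]
        · norm_num
        · intro v hv
          obtain ⟨t, ht, htv⟩ := (mem_filter.1 hv).2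
          have h1 := hag t ht
          rw [word_x s x t v htv, word_x s0 x0 t v htv] at h1
          exact zmod2_eq_of_decide h1
        · intro d hd
          obtain ⟨t, ht, htd⟩ := (mem_filter.1 hd).2
          have h1 := hag t ht
          rw [word_s s x t d htd, word_s s0 x0 t d htd] at h1
          exact zmod2_eq_of_decide h1
    have e1 : (𝔼 s : Fin r → ZMod 2, if ∀ d ∈ As, s d = s0 d then (1 : ℝ) else 0) =
        (1 / 2) ^ As.card := by
      exact expect_agree As s0
    have e2 : (𝔼 x : Fin (N - (2 * q + r)) → ZMod 2,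
        if ∀ v ∈ Ax, x v = x0 v then (1 : ℝ) else 0) = (1 / 2) ^ Ax.card := by
      exact expect_agree Ax x0
    have h1 : (𝔼 s : Fin r → ZMod 2, 𝔼 x : Fin (N - (2 * q + r)) → ZMod 2,
        (if P (word N q p ρ r s x) then (0 : ℝ) else 1)) ≤
        𝔼 s : Fin r → ZMod 2, 𝔼 x : Fin (N - (2 * q + r)) → ZMod 2,
          (if ∀ d ∈ As, s d = s0 d then (1 : ℝ) else 0) *
            (if ∀ v ∈ Ax, x v = x0 v then (1 : ℝ) else 0) :=
      Finset.expect_le_expect fun s _ => Finset.expect_le_expect fun x _ => hle s x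
    refine h1.trans ?_
    have h2 : (𝔼 s : Fin r → ZMod 2, 𝔼 x : Fin (N - (2 * q + r)) → ZMod 2,
          (if ∀ d ∈ As, s d = s0 d then (1 : ℝ) else 0) *
            (if ∀ v ∈ Ax, x v = x0 v then (1 : ℝ) else 0)) =
        (1 / 2) ^ As.card * (1 / 2) ^ Ax.card := by
      rw [← e1, ← e2, Finset.expect_mul]
      refine Finset.expect_congr rfl fun s _ => ?_
      rw [Finset.mul_expect]
    rw [h2, ← pow_add]
    exact pow_le_pow_of_le_one (by norm_num) (by norm_num) hcard
  · push Not at hex
    have h1 : (𝔼 s : Fin r → ZMod 2, 𝔼 x : Fin (N - (2 * q + r)) → ZMod 2,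
        (if P (word N q p ρ r s x) then (0 : ℝ) else 1)) = 0 := by
      refine Finset.expect_eq_zero fun s _ => Finset.expect_eq_zero fun x _ => ?_
      rw [if_pos (hex s x)]
    rw [h1]
    positivity

open Classical in
/-- A bottom gate which reads at least `R` variables is false on a random word with probability
at most `2 ^ -(R - 2 * q)`. -/
theorem cyl_wide_prob {N q p ρ r : ℕ} (C : Circuit N) (R : ℕ) (b : Fin C.bottom)
    (hb : (R : ℕ∞) ≤ (C.vars b).encard) :
    (𝔼 s : Fin r → ZMod 2, 𝔼 x : Fin (N - (2 * q + r)) → ZMod 2,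
      (if (∃ l ∈ C.lits b, l.eval (word N q p ρ r s x) = true) then (0 : ℝ) else 1))
      ≤ (1 / 2) ^ (R - 2 * q) := by
  set T : Finset (Fin N) := univ.filter fun v => v ∈ C.vars b ∧ ¬ (v : ℕ) < 2 * q with hT
  have h1 := cyl_prob_le (q := q) (p := p) (ρ := ρ) (r := r)
    (fun w : Fin N → Bool => ∃ l ∈ C.lits b, l.eval w = true) T
    (fun t ht => (mem_filter.1 ht).2.2) (by
      intro w w' hw hw' t ht
      obtain ⟨l, hl, hlt⟩ := (mem_filter.1 ht).2.1
      push Not at hw hw'
      exact eq_of_reads' l hlt (hw l hl) (hw' l hl))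
  refine h1.trans (pow_le_pow_of_le_one (by norm_num) (by norm_num) ?_)
  have h2 : C.vars b = ((univ.filter fun v => v ∈ C.vars b : Finset (Fin N)) : Set (Fin N)) := by
    ext v
    simp
  rw [h2, Set.encard_coe_eq_coe_finsetCard] at hb
  have h3 : R ≤ (univ.filter fun v => v ∈ C.vars b : Finset (Fin N)).card := by
    exact_mod_cast hb
  have h4 : (univ.filter fun v => v ∈ C.vars b : Finset (Fin N)) ⊆
      T ∪ univ.filter fun v : Fin N => (v : ℕ) < 2 * q := by
    intro v hv
    by_cases h5 : (v : ℕ) < 2 * q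
    · exact mem_union_right _ (mem_filter.2 ⟨mem_univ _, h5⟩)
    · exact mem_union_left _ (mem_filter.2 ⟨mem_univ _, (mem_filter.1 hv).2, h5⟩)
  have h5 : (univ.filter fun v : Fin N => (v : ℕ) < 2 * q).card ≤ 2 * q := by
    have h6 : (univ.filter fun v : Fin N => (v : ℕ) < 2 * q).card ≤ (range (2 * q)).card := by
      refine card_le_card_of_injOn (fun v => (v : ℕ)) ?_ ?_
      · intro v hv
        have hv' : v ∈ univ.filter fun v : Fin N => (v : ℕ) < 2 * q := hv
        exact mem_coe.2 (mem_range.2 (mem_filter.1 hv').2)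
      · exact fun a _ b _ h => Fin.ext h
    rwa [card_range] at h6
  have h6 := (card_le_card h4).trans (card_union_le _ _)
  omega

open Classical in
/-- Some bottom gate of a finite set of bottom gates which read at least `R` variables is false on
a random word with probability at most `2 ^ -(R - 2 * q)` times the number of the gates. -/
theorem cyl_bad_prob {N q p ρ r : ℕ} (C : Circuit N) (R : ℕ) (B : Finset (Fin C.bottom))
    (hB : ∀ b ∈ B, (R : ℕ∞) ≤ (C.vars b).encard) :
    (𝔼 s : Fin r → ZMod 2, 𝔼 x : Fin (N - (2 * q + r)) → ZMod 2,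
      (if (∃ b ∈ B, ¬ ∃ l ∈ C.lits b, l.eval (word N q p ρ r s x) = true) then (1 : ℝ) else 0))
      ≤ B.card * (1 / 2) ^ (R - 2 * q) := by
  have hle : ∀ (s : Fin r → ZMod 2) (x : Fin (N - (2 * q + r)) → ZMod 2),
      (if (∃ b ∈ B, ¬ ∃ l ∈ C.lits b, l.eval (word N q p ρ r s x) = true) then (1 : ℝ) else 0) ≤
        ∑ b ∈ B, (if (∃ l ∈ C.lits b, l.eval (word N q p ρ r s x) = true) then (0 : ℝ)
          else 1) := by
    intro s x
    have hnn : ∀ b ∈ B, (0 : ℝ) ≤
        (if (∃ l ∈ C.lits b, l.eval (word N q p ρ r s x) = true) then (0 : ℝ) else 1) := by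
      intro b _
      split_ifs <;> norm_num
    by_cases h : ∃ b ∈ B, ¬ ∃ l ∈ C.lits b, l.eval (word N q p ρ r s x) = true
    · rw [if_pos h]
      obtain ⟨b, hb, hb'⟩ := h
      have h1 := Finset.single_le_sum hnn hb
      rwa [if_neg hb'] at h1
    · rw [if_neg h]
      exact Finset.sum_nonneg hnn
  have h1 : (𝔼 s : Fin r → ZMod 2, 𝔼 x : Fin (N - (2 * q + r)) → ZMod 2,
      (if (∃ b ∈ B, ¬ ∃ l ∈ C.lits b, l.eval (word N q p ρ r s x) = true) then (1 : ℝ) else 0))
      ≤ 𝔼 s : Fin r → ZMod 2, 𝔼 x : Fin (N - (2 * q + r)) → ZMod 2,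
        ∑ b ∈ B, (if (∃ l ∈ C.lits b, l.eval (word N q p ρ r s x) = true) then (0 : ℝ)
          else 1) :=
    Finset.expect_le_expect fun s _ => Finset.expect_le_expect fun x _ => hle s x
  refine h1.trans ?_
  have h2 : (𝔼 s : Fin r → ZMod 2, 𝔼 x : Fin (N - (2 * q + r)) → ZMod 2,
        ∑ b ∈ B, (if (∃ l ∈ C.lits b, l.eval (word N q p ρ r s x) = true) then (0 : ℝ)
          else 1)) =
      ∑ b ∈ B, 𝔼 s : Fin r → ZMod 2, 𝔼 x : Fin (N - (2 * q + r)) → ZMod 2,
        (if (∃ l ∈ C.lits b, l.eval (word N q p ρ r s x) = true) then (0 : ℝ) else 1) := by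
    rw [← Finset.expect_sum_comm]
    refine Finset.expect_congr rfl fun s _ => ?_
    rw [Finset.expect_sum_comm]
  rw [h2]
  refine (Finset.sum_le_sum fun b hb => cyl_wide_prob C R b (hB b hb)).trans ?_
  rw [Finset.sum_const, nsmul_eq_mul]

end Vale.Agent.P336.R2.H81
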