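import Vale.Agent.P336.R2.H524.NarrowExp

/-!
# P336: a conjunction of functions of few variables is a conjunction of narrow clauses
-/

namespace Vale.Agent.P336.Cyl

open Finset Vale.Agent.P336.Expansion

/-- (W2) A conjunction of functions of at most `R` variables is a conjunction of clauses with at
most `R` literals. -/
theorem exists_clauses {V : Type} [Fintype V] [DecidableEq V] {B : Type} [Fintype B] (R : ℕ)
    (β : B → (V → Bool) → Prop) (D : B → Finset V) (hD : ∀ b, (D b).card ≤ R)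
    (hβ : ∀ b z z', (∀ v ∈ D b, z v = z' v) → (β b z ↔ β b z')) :
    ∃ (I : Finset ℕ) (C : ℕ → Cl V), (∀ i ∈ I, (C i).S.card ≤ R) ∧
      ∀ z, ((∀ b, β b z) → ∏ i ∈ I, ind (C i) z = 1) ∧
        ((¬ ∀ b, β b z) → ∏ i ∈ I, ind (C i) z = 0) := by
  classical
  let X : Type := {q : B × (V → Bool) // ¬ β q.1 q.2}
  let e : X ≃ Fin (Fintype.card X) := Fintype.equivFin X
  let C : ℕ → Cl V := fun i =>
    if h : i < Fintype.card X then ⟨D (e.symm ⟨i, h⟩).1.1, (e.symm ⟨i, h⟩).1.2⟩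
    else ⟨∅, fun _ => false⟩
  have hC : ∀ q : X, C (e q) = ⟨D q.1.1, q.1.2⟩ := by
    intro q
    have h1 : ((e q : Fin (Fintype.card X)) : ℕ) < Fintype.card X := (e q).isLt
    have h2 : e.symm ⟨(e q : ℕ), h1⟩ = q := e.symm_apply_apply q
    show (if h : ((e q : Fin (Fintype.card X)) : ℕ) < Fintype.card X then
      (⟨D (e.symm ⟨(e q : ℕ), h⟩).1.1, (e.symm ⟨(e q : ℕ), h⟩).1.2⟩ : Cl V)
      else ⟨∅, fun _ => false⟩) = _
    rw [dif_pos h1, h2]
  have hex : ∀ i ∈ range (Fintype.card X), ∃ q : X, C i = ⟨D q.1.1, q.1.2⟩ ∧ (e q : ℕ) = i := by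
    intro i hi
    refine ⟨e.symm ⟨i, mem_range.1 hi⟩, ?_, ?_⟩
    · have h1 := hC (e.symm ⟨i, mem_range.1 hi⟩)
      rwa [e.apply_symm_apply] at h1
    · rw [e.apply_symm_apply]
  refine ⟨range (Fintype.card X), C, fun i hi => ?_, fun z => ⟨fun hz => ?_, fun hz => ?_⟩⟩
  · obtain ⟨q, hq, -⟩ := hex i hi
    rw [hq]
    exact hD _
  · refine prod_eq_one fun i hi => ?_
    obtain ⟨q, hq, -⟩ := hex i hi
    rw [hq]
    unfold ind
    rw [if_neg]
    intro hag
    exact q.2 ((hβ q.1.1 z q.1.2 hag).1 (hz _))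
  · push Not at hz
    obtain ⟨b, hb⟩ := hz
    let q : X := ⟨(b, z), hb⟩
    refine prod_eq_zero (mem_range.2 (e q).isLt) ?_
    rw [hC]
    unfold ind
    rw [if_pos]
    intro v _
    rfl

end Vale.Agent.P336.Cyl
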