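import Vale.Agent.P336.R2.H81.CylProb

/-!
# P336: a random word meets each of a few patterns of at least `c` letters

If every pattern `(A, τ)` of a set `G` has at least `c` positions, all outside the header, then
with an error of at most `2 ^ -c` times the number of the patterns a random word agrees with each
`τ` somewhere on `A`.
-/

namespace Vale.Agent.P336.R2.H81

open Finset Vale.Agent.P336.Cyl
open scoped BigOperators

open Classical in
/-- The probability that a random word differs from some pattern of `G` on all of its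
positions. -/
theorem miss_le {N q p ρ r c H : ℕ} (_hN : 2 * q + r ≤ N)
    (G : Finset (Finset (Fin N) × (Fin N → Bool)))
    (hG : ∀ g ∈ G, c ≤ g.1.card ∧ ∀ v ∈ g.1, 2 * q ≤ (v : ℕ)) (hH : G.card ≤ H) :
    𝔼 s : Fin r → ZMod 2, 𝔼 x : Fin (N - (2 * q + r)) → ZMod 2,
      (if ∃ g ∈ G, ∀ v ∈ g.1, word N q p ρ r s x v ≠ g.2 v then (1 : ℝ) else 0) ≤
        (H : ℝ) * (1 / 2) ^ c := by
  have hle : ∀ (s : Fin r → ZMod 2) (x : Fin (N - (2 * q + r)) → ZMod 2),
      (if ∃ g ∈ G, ∀ v ∈ g.1, word N q p ρ r s x v ≠ g.2 v then (1 : ℝ) else 0) ≤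
        ∑ g ∈ G, (if ∀ v ∈ g.1, word N q p ρ r s x v ≠ g.2 v then (1 : ℝ) else 0) := by
    intro s x
    have hnn : ∀ g ∈ G, (0 : ℝ) ≤
        (if ∀ v ∈ g.1, word N q p ρ r s x v ≠ g.2 v then (1 : ℝ) else 0) := by
      intro g _
      split_ifs <;> norm_num
    by_cases h : ∃ g ∈ G, ∀ v ∈ g.1, word N q p ρ r s x v ≠ g.2 v
    · rw [if_pos h]
      obtain ⟨g, hg, hg'⟩ := h
      have h1 := Finset.single_le_sum hnn hg
      rwa [if_pos hg'] at h1
    · rw [if_neg h]
      exact Finset.sum_nonneg hnn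
  have h1 : (𝔼 s : Fin r → ZMod 2, 𝔼 x : Fin (N - (2 * q + r)) → ZMod 2,
      (if ∃ g ∈ G, ∀ v ∈ g.1, word N q p ρ r s x v ≠ g.2 v then (1 : ℝ) else 0))
      ≤ 𝔼 s : Fin r → ZMod 2, 𝔼 x : Fin (N - (2 * q + r)) → ZMod 2,
        ∑ g ∈ G, (if ∀ v ∈ g.1, word N q p ρ r s x v ≠ g.2 v then (1 : ℝ) else 0) :=
    Finset.expect_le_expect fun s _ => Finset.expect_le_expect fun x _ => hle s x
  refine h1.trans ?_
  have h2 : (𝔼 s : Fin r → ZMod 2, 𝔼 x : Fin (N - (2 * q + r)) → ZMod 2,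
        ∑ g ∈ G, (if ∀ v ∈ g.1, word N q p ρ r s x v ≠ g.2 v then (1 : ℝ) else 0)) =
      ∑ g ∈ G, 𝔼 s : Fin r → ZMod 2, 𝔼 x : Fin (N - (2 * q + r)) → ZMod 2,
        (if ∀ v ∈ g.1, word N q p ρ r s x v ≠ g.2 v then (1 : ℝ) else 0) := by
    rw [← Finset.expect_sum_comm]
    refine Finset.expect_congr rfl fun s _ => ?_
    rw [Finset.expect_sum_comm]
  rw [h2]
  have h3 : ∀ g ∈ G, (𝔼 s : Fin r → ZMod 2, 𝔼 x : Fin (N - (2 * q + r)) → ZMod 2,
        (if ∀ v ∈ g.1, word N q p ρ r s x v ≠ g.2 v then (1 : ℝ) else 0)) ≤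
          (1 / 2) ^ c := by
    intro g hg
    have h4 := cyl_prob_le (q := q) (p := p) (ρ := ρ) (r := r)
      (fun w : Fin N → Bool => ¬ (∀ v ∈ g.1, w v ≠ g.2 v)) g.1
      (fun t ht => by
        have := (hG g hg).2 t ht
        omega) (by
        intro w w' hw hw' t ht
        have e1 : w t ≠ g.2 t := (not_not.1 hw) t ht
        have e2 : w' t ≠ g.2 t := (not_not.1 hw') t ht
        revert e1 e2
        cases w t <;> cases w' t <;> cases g.2 t <;> simp)
    have h5 : (𝔼 s : Fin r → ZMod 2, 𝔼 x : Fin (N - (2 * q + r)) → ZMod 2,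
        (if ∀ v ∈ g.1, word N q p ρ r s x v ≠ g.2 v then (1 : ℝ) else 0)) ≤
          (1 / 2) ^ g.1.card := by
      refine le_trans (Finset.expect_le_expect fun s _ => Finset.expect_le_expect fun x _ => ?_) h4
      by_cases h6 : ∀ v ∈ g.1, word N q p ρ r s x v ≠ g.2 v
      · rw [if_pos h6, if_neg (not_not.2 h6)]
      · rw [if_neg h6, if_pos h6]
    exact h5.trans (pow_le_pow_of_le_one (by norm_num) (by norm_num) (hG g hg).1)
  refine (Finset.sum_le_sum h3).trans ?_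
  rw [Finset.sum_const, nsmul_eq_mul]
  exact mul_le_mul_of_nonneg_right (by exact_mod_cast hH) (by positivity)

end Vale.Agent.P336.R2.H81
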