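import Vale.Agent.P336.R2.H81.CylProb

/-!
# P336: bottom gates with many literals outside a set are satisfied outside of it

If every gate of a set `G` reads at least `n` letters outside the header and outside of `U`, then
on a random word all gates of `G` have a true literal outside of `U`, with an error of at most
`2 ^ -n` times the number of the gates.
-/

namespace Vale.Agent.P336.R2.H81

open Finset Vale.Agent.P336.Cyl
open scoped BigOperators

open Classical in
theorem miss_prob {N q p ρ r n : ℕ} (C : Circuit N) (G : Finset (Fin C.bottom))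
    (U : Finset (Fin N))
    (hG : ∀ b ∈ G, n ≤ (univ.filter fun v : Fin N =>
      v ∈ C.vars b ∧ ¬ (v : ℕ) < 2 * q ∧ v ∉ U).card) :
    𝔼 s : Fin r → ZMod 2, 𝔼 x : Fin (N - (2 * q + r)) → ZMod 2,
      (if (∀ b ∈ G, ∃ l ∈ C.lits b, (∀ v, l.Reads v → v ∉ U) ∧
        l.eval (word N q p ρ r s x) = true) then (0 : ℝ) else 1) ≤ G.card * (1 / 2) ^ n := by
  have hle : ∀ (s : Fin r → ZMod 2) (x : Fin (N - (2 * q + r)) → ZMod 2),
      (if (∀ b ∈ G, ∃ l ∈ C.lits b, (∀ v, l.Reads v → v ∉ U) ∧
        l.eval (word N q p ρ r s x) = true) then (0 : ℝ) else 1) ≤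
        ∑ b ∈ G, (if (∃ l ∈ C.lits b, (∀ v, l.Reads v → v ∉ U) ∧
          l.eval (word N q p ρ r s x) = true) then (0 : ℝ) else 1) := by
    intro s x
    have hnn : ∀ b ∈ G, (0 : ℝ) ≤ (if (∃ l ∈ C.lits b, (∀ v, l.Reads v → v ∉ U) ∧
          l.eval (word N q p ρ r s x) = true) then (0 : ℝ) else 1) := by
      intro b _
      split_ifs <;> norm_num
    by_cases h : ∀ b ∈ G, ∃ l ∈ C.lits b, (∀ v, l.Reads v → v ∉ U) ∧
        l.eval (word N q p ρ r s x) = true
    · rw [if_pos h]
      exact Finset.sum_nonneg hnn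
    · rw [if_neg h]
      simp only [not_forall] at h
      obtain ⟨b, hb, hb'⟩ := h
      have h1 := Finset.single_le_sum hnn hb
      rwa [if_neg hb'] at h1
  have h1 : (𝔼 s : Fin r → ZMod 2, 𝔼 x : Fin (N - (2 * q + r)) → ZMod 2,
      (if (∀ b ∈ G, ∃ l ∈ C.lits b, (∀ v, l.Reads v → v ∉ U) ∧
        l.eval (word N q p ρ r s x) = true) then (0 : ℝ) else 1))
      ≤ 𝔼 s : Fin r → ZMod 2, 𝔼 x : Fin (N - (2 * q + r)) → ZMod 2,
        ∑ b ∈ G, (if (∃ l ∈ C.lits b, (∀ v, l.Reads v → v ∉ U) ∧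
          l.eval (word N q p ρ r s x) = true) then (0 : ℝ) else 1) :=
    Finset.expect_le_expect fun s _ => Finset.expect_le_expect fun x _ => hle s x
  refine h1.trans ?_
  have h2 : (𝔼 s : Fin r → ZMod 2, 𝔼 x : Fin (N - (2 * q + r)) → ZMod 2,
        ∑ b ∈ G, (if (∃ l ∈ C.lits b, (∀ v, l.Reads v → v ∉ U) ∧
          l.eval (word N q p ρ r s x) = true) then (0 : ℝ) else 1)) =
      ∑ b ∈ G, 𝔼 s : Fin r → ZMod 2, 𝔼 x : Fin (N - (2 * q + r)) → ZMod 2,
        (if (∃ l ∈ C.lits b, (∀ v, l.Reads v → v ∉ U) ∧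
          l.eval (word N q p ρ r s x) = true) then (0 : ℝ) else 1) := by
    rw [← Finset.expect_sum_comm]
    refine Finset.expect_congr rfl fun s _ => ?_
    rw [Finset.expect_sum_comm]
  rw [h2]
  have h3 : ∀ b ∈ G, (𝔼 s : Fin r → ZMod 2, 𝔼 x : Fin (N - (2 * q + r)) → ZMod 2,
        (if (∃ l ∈ C.lits b, (∀ v, l.Reads v → v ∉ U) ∧
          l.eval (word N q p ρ r s x) = true) then (0 : ℝ) else 1)) ≤ (1 / 2) ^ n := by
    intro b hb
    have h4 := cyl_prob_le (q := q) (p := p) (ρ := ρ) (r := r)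
      (fun w : Fin N → Bool => ∃ l ∈ C.lits b, (∀ v, l.Reads v → v ∉ U) ∧ l.eval w = true)
      (univ.filter fun v : Fin N => v ∈ C.vars b ∧ ¬ (v : ℕ) < 2 * q ∧ v ∉ U)
      (fun t ht => (mem_filter.1 ht).2.2.1) (by
        intro w w' hw hw' t ht
        obtain ⟨⟨l, hl, hlt⟩, -, htU⟩ := (mem_filter.1 ht).2
        have hlU : ∀ v, l.Reads v → v ∉ U := by
          intro v hv
          have hvt : v = t := by
            cases l with
            | pos i =>
              have e1 : v = i := hv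
              have e2 : t = i := hlt
              rw [e1, e2]
            | neg i =>
              have e1 : v = i := hv
              have e2 : t = i := hlt
              rw [e1, e2]
            | const b => exact absurd hv id
          rw [hvt]
          exact htU
        exact eq_of_reads' l hlt (fun h => hw ⟨l, hl, hlU, h⟩) (fun h => hw' ⟨l, hl, hlU, h⟩))
    exact h4.trans (pow_le_pow_of_le_one (by norm_num) (by norm_num) (hG b hb))
  refine (Finset.sum_le_sum h3).trans ?_
  rw [Finset.sum_const, nsmul_eq_mul]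

end Vale.Agent.P336.R2.H81
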