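import Mathlib

/-!
# A second moment lemma for random colourings of views
-/

open Finset

namespace Vale.Agent.P336.R2.H81

open scoped Classical in
/-- product weights: the total weight of the colourings avoiding colour `i` on `S` -/
theorem sum_avoid {ι : Type} [Fintype ι] {p : ℕ} (q : Fin p → ℝ) (hqs : ∑ i, q i = 1)
    (i : Fin p) (S : Finset ι) :
    ∑ c : ι → Fin p, (∏ t, q (c t)) * (if ∀ t ∈ S, c t ≠ i then 1 else 0) =
      (1 - q i) ^ S.card := by
  have h1 : ∀ c : ι → Fin p, (∏ t, q (c t)) * (if ∀ t ∈ S, c t ≠ i then (1 : ℝ) else 0) =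
      ∏ t, (fun (t : ι) (j : Fin p) => if t ∈ S then (if j = i then 0 else q j) else q j)
        t (c t) := by
    intro c
    by_cases h : ∀ t ∈ S, c t ≠ i
    · rw [if_pos h, mul_one]
      refine prod_congr rfl fun t _ => ?_
      by_cases ht : t ∈ S
      · simp [ht, h t ht]
      · simp [ht]
    · rw [if_neg h, mul_zero]
      push Not at h
      obtain ⟨t, ht, hti⟩ := h
      refine (prod_eq_zero (mem_univ t) ?_).symm
      simp [ht, hti]
  have h0 := prod_univ_sum (fun _ : ι => (univ : Finset (Fin p)))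
    (fun (t : ι) (j : Fin p) => if t ∈ S then (if j = i then 0 else q j) else q j)
  rw [Fintype.piFinset_univ] at h0
  rw [sum_congr rfl fun c _ => h1 c, ← h0]
  have h2 : ∀ t : ι, ∑ j, (if t ∈ S then (if j = i then 0 else q j) else q j) =
      if t ∈ S then 1 - q i else 1 := by
    intro t
    by_cases ht : t ∈ S
    · simp only [ht, if_true]
      have : ∀ j, (if j = i then 0 else q j) = q j - (if j = i then q j else 0) := by
        intro j
        split_ifs <;> simp
      rw [sum_congr rfl fun j _ => this j, sum_sub_distrib, hqs]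
      simp
    · simp only [ht, if_false]
      exact hqs
  rw [prod_congr rfl fun t _ => h2 t, prod_ite_mem, univ_inter, prod_const]

open scoped Classical in
/-- the second moment lemma -/
theorem exists_class_of_weights {p m k : ℕ} {ι : Type} [Fintype ι]
    (V : ι → Finset (Fin p × Fin m)) (hk : ∀ t, (V t).card ≤ k) (q : Fin p → ℝ)
    (hq0 : ∀ i, 0 ≤ q i) (hq1 : ∀ i, q i ≤ 1) (hqs : ∑ i, q i = 1)
    (Lo : Fin p → Finset (Fin m)) (D : Fin p → ℕ)
    (hD : ∀ i, ∀ v ∈ Lo i, (Finset.univ.filter fun t => (i, v) ∈ V t).card ≤ D i)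
    (ρ : ℝ) (hρ0 : 0 < ρ) (hρ : ∀ i, ρ ≤ (1 - q i) ^ D i) (hLo : ∀ i, (Lo i).Nonempty)
    (hch : ∑ i, 4 * (D i * k : ℝ) / ((Lo i).card * ρ ^ 2) < 1) :
    ∃ c : ι → Fin p, ∀ i, ((Lo i).card * ρ / 2 : ℝ) ≤
      ((Lo i).filter fun v => ∀ t, c t = i → (i, v) ∉ V t).card := by
  set wt : (ι → Fin p) → ℝ := fun c => ∏ t, q (c t) with hwt
  have hwt0 : ∀ c, 0 ≤ wt c := fun c => prod_nonneg fun t _ => hq0 _
  have hwt1 : ∑ c, wt c = 1 := by
    have hne : Nonempty (Fin p) := by
      by_contra hp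
      rw [not_nonempty_iff] at hp
      simp at hqs
    obtain ⟨i0⟩ := hne
    simpa [hwt] using sum_avoid (ι := ι) q hqs i0 ∅
  set N : Fin p → Fin m → Finset ι := fun i v => univ.filter fun t => (i, v) ∈ V t with hN
  set Xv : Fin p → Fin m → (ι → Fin p) → ℝ := fun i v c =>
    if ∀ t ∈ N i v, c t ≠ i then 1 else 0 with hXv
  set X : Fin p → (ι → Fin p) → ℝ := fun i c => ∑ v ∈ Lo i, Xv i v c with hX
  have hXcard : ∀ i c, X i c = ((Lo i).filter fun v => ∀ t, c t = i → (i, v) ∉ V t).card := by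
    intro i c
    simp only [hX, hXv]
    rw [sum_boole]
    congr 2
    refine filter_congr fun v _ => ?_
    simp only [hN, mem_filter, mem_univ, true_and]
    exact ⟨fun h t ht hv => h t hv ht, fun h t hv ht => h t ht hv⟩
  -- first moments
  have hE1 : ∀ i v, ∑ c, wt c * Xv i v c = (1 - q i) ^ (N i v).card := fun i v =>
    sum_avoid q hqs i (N i v)
  have hE2 : ∀ i u v, ∑ c, wt c * (Xv i u c * Xv i v c) =
      (1 - q i) ^ (N i u ∪ N i v).card := by
    intro i u v
    rw [← sum_avoid q hqs i (N i u ∪ N i v)]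
    refine sum_congr rfl fun c _ => ?_
    simp only [hwt]
    congr 1
    have hU : (∀ t ∈ N i u ∪ N i v, c t ≠ i) ↔
        (∀ t ∈ N i u, c t ≠ i) ∧ ∀ t ∈ N i v, c t ≠ i := by
      constructor
      · intro h
        exact ⟨fun t ht => h t (mem_union_left _ ht), fun t ht => h t (mem_union_right _ ht)⟩
      · rintro ⟨h1, h2⟩ t ht
        rcases mem_union.1 ht with ht | ht
        · exact h1 t ht
        · exact h2 t ht
    simp only [hXv]
    by_cases hA : ∀ t ∈ N i u, c t ≠ i
    · by_cases hB : ∀ t ∈ N i v, c t ≠ i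
      · rw [if_pos hA, if_pos hB, if_pos (hU.2 ⟨hA, hB⟩), mul_one]
      · rw [if_neg hB, if_neg (fun h => hB (hU.1 h).2), mul_zero]
    · rw [if_neg hA, if_neg (fun h => hA (hU.1 h).1), zero_mul]
  set mu : Fin p → ℝ := fun i => ∑ v ∈ Lo i, (1 - q i) ^ (N i v).card with hmu
  have hEX : ∀ i, ∑ c, wt c * X i c = mu i := by
    intro i
    simp only [hX, mul_sum]
    rw [sum_comm]
    exact sum_congr rfl fun v _ => hE1 i v
  have hEXX : ∀ i, ∑ c, wt c * (X i c) ^ 2 =
      ∑ u ∈ Lo i, ∑ v ∈ Lo i, (1 - q i) ^ (N i u ∪ N i v).card := by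
    intro i
    have : ∀ c, wt c * (X i c) ^ 2 = ∑ u ∈ Lo i, ∑ v ∈ Lo i, wt c * (Xv i u c * Xv i v c) := by
      intro c
      simp only [hX, sq]
      rw [sum_mul_sum, mul_sum]
      exact sum_congr rfl fun u _ => by rw [mul_sum]
    rw [sum_congr rfl fun c _ => this c, sum_comm]
    refine sum_congr rfl fun u _ => ?_
    rw [sum_comm]
    exact sum_congr rfl fun v _ => hE2 i u v
  have h1q0 : ∀ i, 0 ≤ 1 - q i := fun i => sub_nonneg.2 (hq1 i)
  have h1q1 : ∀ i, 1 - q i ≤ 1 := fun i => by linarith [hq0 i]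
  have hmuge : ∀ i, (Lo i).card * ρ ≤ mu i := by
    intro i
    simp only [hmu]
    rw [← nsmul_eq_mul]
    refine card_nsmul_le_sum _ _ _ fun v hv => ?_
    exact (hρ i).trans (pow_le_pow_of_le_one (h1q0 i) (h1q1 i) (hD i v hv))
  -- variance
  have hvar : ∀ i, ∑ c, wt c * (X i c - mu i) ^ 2 ≤ (Lo i).card * D i * k := by
    intro i
    have h1 : ∑ c, wt c * (X i c - mu i) ^ 2 =
        ∑ c, wt c * (X i c) ^ 2 - mu i ^ 2 := by
      have : ∀ c, wt c * (X i c - mu i) ^ 2 =
          wt c * (X i c) ^ 2 - 2 * mu i * (wt c * X i c) + mu i ^ 2 * wt c := by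
        intro c
        ring
      rw [sum_congr rfl fun c _ => this c, sum_add_distrib, sum_sub_distrib, ← mul_sum,
        ← mul_sum, hEX, hwt1]
      ring
    have h2 : mu i ^ 2 = ∑ u ∈ Lo i, ∑ v ∈ Lo i,
        (1 - q i) ^ (N i u).card * (1 - q i) ^ (N i v).card := by
      simp only [hmu, sq]
      rw [sum_mul_sum]
    rw [h1, hEXX, h2, ← sum_sub_distrib]
    have h3 : ∀ u ∈ Lo i, ∑ v ∈ Lo i, (1 - q i) ^ (N i u ∪ N i v).card -
        ∑ v ∈ Lo i, (1 - q i) ^ (N i u).card * (1 - q i) ^ (N i v).card ≤ D i * k := by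
      intro u hu
      rw [← sum_sub_distrib]
      have h4 : ∀ v ∈ Lo i, (1 - q i) ^ (N i u ∪ N i v).card -
          (1 - q i) ^ (N i u).card * (1 - q i) ^ (N i v).card ≤
          if Disjoint (N i u) (N i v) then 0 else 1 := by
        intro v _
        split_ifs with hd
        · rw [card_union_of_disjoint hd, pow_add, sub_self]
        · have a1 : (1 - q i) ^ (N i u ∪ N i v).card ≤ 1 := pow_le_one₀ (h1q0 i) (h1q1 i)
          have a2 : 0 ≤ (1 - q i) ^ (N i u).card * (1 - q i) ^ (N i v).card :=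
            mul_nonneg (pow_nonneg (h1q0 i) _) (pow_nonneg (h1q0 i) _)
          linarith
      refine (sum_le_sum h4).trans ?_
      have h5 : (∑ v ∈ Lo i, if Disjoint (N i u) (N i v) then (0 : ℝ) else 1) =
          ((Lo i).filter fun v => ¬ Disjoint (N i u) (N i v)).card := by
        rw [card_filter]
        push_cast
        refine sum_congr rfl fun v _ => ?_
        by_cases hd : Disjoint (N i u) (N i v) <;> simp [hd]
      rw [h5]
      have h6 : ((Lo i).filter fun v => ¬ Disjoint (N i u) (N i v)) ⊆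
          (N i u).biUnion fun t => ((V t).filter fun x => x.1 = i).image Prod.snd := by
        intro v hv
        rw [mem_filter] at hv
        obtain ⟨t, ht1, ht2⟩ := not_disjoint_iff.1 hv.2
        rw [mem_biUnion]
        refine ⟨t, ht1, mem_image.2 ⟨(i, v), ?_, rfl⟩⟩
        simp only [hN, mem_filter, mem_univ, true_and] at ht2
        simp [ht2]
      have h7 : ((N i u).biUnion fun t => ((V t).filter fun x => x.1 = i).image Prod.snd).card ≤
          (N i u).card * k := by
        refine card_biUnion_le_card_mul _ _ _ fun t _ => ?_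
        exact (card_image_le.trans (card_filter_le _ _)).trans (hk t)
      have h8 : ((Lo i).filter fun v => ¬ Disjoint (N i u) (N i v)).card ≤ D i * k :=
        ((card_le_card h6).trans h7).trans (Nat.mul_le_mul_right _ (hD i u hu))
      exact_mod_cast h8
    calc _ ≤ ∑ u ∈ Lo i, (D i * k : ℝ) := sum_le_sum h3
      _ = _ := by rw [sum_const, nsmul_eq_mul]; ring
  by_contra hcon
  push Not at hcon
  set Bad : Fin p → (ι → Fin p) → Prop := fun i c => X i c < (Lo i).card * ρ / 2 with hBad
  have hbad : ∀ c, ∃ i, Bad i c := by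
    intro c
    obtain ⟨i, hi⟩ := hcon c
    refine ⟨i, ?_⟩
    simp only [hBad]
    rw [hXcard]
    exact hi
  have hPbad : ∀ i, ∑ c, wt c * (if Bad i c then 1 else 0) ≤
      4 * (D i * k : ℝ) / ((Lo i).card * ρ ^ 2) := by
    intro i
    have hn : (0 : ℝ) < (Lo i).card := by exact_mod_cast (hLo i).card_pos
    have hM : 0 < (Lo i).card * ρ / 2 := by positivity
    have h1 : ∀ c, wt c * (if Bad i c then 1 else 0) * ((Lo i).card * ρ / 2) ^ 2 ≤
        wt c * (X i c - mu i) ^ 2 := by
      intro c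
      rw [mul_assoc]
      refine mul_le_mul_of_nonneg_left ?_ (hwt0 c)
      split_ifs with hb
      · rw [one_mul]
        have hb' : X i c < (Lo i).card * ρ / 2 := hb
        have := hmuge i
        have h3 : (Lo i).card * ρ / 2 ≤ mu i - X i c := by linarith
        calc ((Lo i).card * ρ / 2) ^ 2 ≤ (mu i - X i c) ^ 2 :=
              pow_le_pow_left₀ hM.le h3 2
          _ = _ := by ring
      · rw [zero_mul]
        positivity
    have h2 : (∑ c, wt c * (if Bad i c then 1 else 0)) * ((Lo i).card * ρ / 2) ^ 2 ≤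
        (Lo i).card * D i * k := by
      rw [sum_mul]
      exact (sum_le_sum fun c _ => h1 c).trans (hvar i)
    have h3 : 4 * (D i * k : ℝ) / ((Lo i).card * ρ ^ 2) =
        ((Lo i).card * D i * k) / ((Lo i).card * ρ / 2) ^ 2 := by
      field_simp
      ring
    rw [h3, le_div_iff₀ (by positivity)]
    exact h2
  have hfin : (1 : ℝ) ≤ ∑ i, ∑ c, wt c * (if Bad i c then 1 else 0) := by
    rw [sum_comm]
    refine hwt1.symm.le.trans (sum_le_sum fun c _ => ?_)
    obtain ⟨i, hi⟩ := hbad c
    have : wt c * (if Bad i c then (1 : ℝ) else 0) ≤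
        ∑ j, wt c * (if Bad j c then (1 : ℝ) else 0) :=
      single_le_sum (f := fun j => wt c * (if Bad j c then (1 : ℝ) else 0))
        (fun j _ => mul_nonneg (hwt0 c) (by split_ifs <;> norm_num)) (mem_univ i)
    rwa [if_pos hi, mul_one] at this
  have := sum_le_sum fun i (_ : i ∈ (univ : Finset (Fin p))) => hPbad i
  linarith

end Vale.Agent.P336.R2.H81
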