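import Vale.Agent.P336.R2.H836.Spec2
import Vale.Agent.P336.R2.H836.Core

/-!
# P336: a wide bottom gate is almost always true on the words of the language

A bottom gate which reads at least `R` variables is false on a random word with probability at
most `2 ^ -(R - Nat.size N)`.
-/

namespace Vale.Agent.P336.R2.H81

open Finset H836

/-- The position of the letter `d` of the second quarter. -/
def posS {N : ℕ} (d : Fin (N / 4)) : Fin N :=
  ⟨N / 4 + d, by have := d.isLt; omega⟩

theorem posX_lt {N p m : ℕ} (hpm : p * m ≤ N / 4) (v : Fin p × Fin m) :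
    2 * (N / 4) + v.1 * m + v.2 < N := by
  obtain ⟨i, j⟩ := v
  have hi := i.isLt
  have hj := j.isLt
  have h1 : (i : ℕ) * m + j < p * m := by
    have h2 : ((i : ℕ) + 1) * m ≤ p * m := Nat.mul_le_mul_right m hi
    rw [add_mul, one_mul] at h2
    exact lt_of_lt_of_le (Nat.add_lt_add_left hj _) h2
  show 2 * (N / 4) + (i : ℕ) * m + (j : ℕ) < N
  omega

/-- The position of a letter of the blocks. -/
def posX {N p m : ℕ} (hpm : p * m ≤ N / 4) (v : Fin p × Fin m) : Fin N :=
  ⟨2 * (N / 4) + v.1 * m + v.2, posX_lt hpm v⟩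

theorem wordOf2_s {N p m : ℕ} (u : Fin N → Bool) (s : Fin (N / 4) → Bool)
    (x : Fin p × Fin m → Bool) (d : Fin (N / 4)) (h : ¬ ((posS d : Fin N) : ℕ) < Nat.size N) :
    wordOf2 N p m u s x (posS d) = s d := by
  have hd := d.isLt
  unfold wordOf2
  rw [if_neg h, dif_pos (by unfold posS; simp only; omega)]
  congr 1
  exact Fin.ext (by simp [posS])

theorem wordOf2_x {N p m : ℕ} (hpm : p * m ≤ N / 4) (u : Fin N → Bool)
    (s : Fin (N / 4) → Bool) (x : Fin p × Fin m → Bool) (v : Fin p × Fin m)
    (h : ¬ ((posX hpm v : Fin N) : ℕ) < Nat.size N) :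
    wordOf2 N p m u s x (posX hpm v) = x v := by
  obtain ⟨i, j⟩ := v
  have hi := i.isLt
  have hj := j.isLt
  have hm : 0 < m := by omega
  have e0 : 2 * (N / 4) + (i : ℕ) * m + (j : ℕ) - 2 * (N / 4) = m * i + j := by
    rw [mul_comm m]
    omega
  have e1 : (2 * (N / 4) + (i : ℕ) * m + (j : ℕ) - 2 * (N / 4)) / m = i := by
    rw [e0, Nat.mul_add_div hm, Nat.div_eq_of_lt hj, add_zero]
  have e2 : (2 * (N / 4) + (i : ℕ) * m + (j : ℕ) - 2 * (N / 4)) % m = j := by
    rw [e0, Nat.mul_add_mod, Nat.mod_eq_of_lt hj]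
  unfold wordOf2
  rw [if_neg h]
  unfold posX
  simp only
  rw [dif_neg (by omega), dif_pos ⟨by omega, by rw [e1]; exact hi, hm⟩]
  congr 1
  exact Prod.ext (Fin.ext e1) (Fin.ext e2)

theorem wordOf2_u {N p m : ℕ} (hpm : p * m ≤ N / 4) (u : Fin N → Bool)
    (s : Fin (N / 4) → Bool) (x : Fin p × Fin m → Bool) (t : Fin N)
    (h : ¬ (t : ℕ) < Nat.size N) (hs : ∀ d, posS d ≠ t)
    (hx : ∀ v : Fin p × Fin m, posX hpm v ≠ t) :
    wordOf2 N p m u s x t = u t := by
  unfold wordOf2
  rw [if_neg h, dif_neg, dif_neg]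
  · rintro ⟨h1, h2, h3⟩
    refine hx (⟨((t : ℕ) - 2 * (N / 4)) / m, h2⟩,
      ⟨((t : ℕ) - 2 * (N / 4)) % m, Nat.mod_lt _ h3⟩) (Fin.ext ?_)
    unfold posX
    simp only
    have h4 := Nat.div_add_mod ((t : ℕ) - 2 * (N / 4)) m
    rw [mul_comm] at h4
    omega
  · rintro ⟨h1, h2⟩
    refine hs ⟨(t : ℕ) - N / 4, h2⟩ (Fin.ext ?_)
    unfold posS
    simp only
    omega

/-- A literal which is false at two assignments has the same letter in both. -/
theorem eq_of_reads {N : ℕ} (l : Lit N) {v : Fin N} (hv : l.Reads v) {w w' : Fin N → Bool}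
    (h : l.eval w ≠ true) (h' : l.eval w' ≠ true) : w v = w' v := by
  cases l with
  | pos i =>
    have hv' : v = i := hv
    subst hv'
    have h1 : w v ≠ true := h
    have h2 : w' v ≠ true := h'
    rw [Bool.eq_false_of_not_eq_true h1, Bool.eq_false_of_not_eq_true h2]
  | neg i =>
    have hv' : v = i := hv
    subst hv'
    have h1 : (!(w v)) ≠ true := h
    have h2 : (!(w' v)) ≠ true := h'
    revert h1 h2
    cases w v <;> cases w' v <;> simp
  | const b => exact absurd hv id

open Classical in
/-- The product of three independent indicators. -/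
theorem E_three {U S X : Type*} [Fintype U] [Fintype S] [Fintype X]
    (f : U → ℝ) (g : S → ℝ) (h : X → ℝ) :
    (E fun u => E fun s => E fun x => f u * (g s * h x)) = E f * (E g * E h) := by
  have h1 : (fun u => E fun s => E fun x => f u * (g s * h x)) =
      fun u => E g * E h * f u := by
    funext u
    have h2 : (fun s => E fun x => f u * (g s * h x)) = fun s => f u * E h * g s := by
      funext s
      have h3 : (fun x => f u * (g s * h x)) = fun x => f u * g s * h x := by
        funext x
        ring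
      rw [h3, E_mul_left]
      ring
    rw [h2, E_mul_left]
    ring
  rw [h1, E_mul_left]
  ring

open Classical in
/-- The bound when the assignments on which the gate is false agree on `T`. -/
theorem prob_le {N p m : ℕ} (hpm : p * m ≤ N / 4) (P : (Fin N → Bool) → Prop)
    (T : Finset (Fin N)) (hT : ∀ t ∈ T, ¬ (t : ℕ) < Nat.size N)
    (hP : ∀ w w', ¬ P w → ¬ P w' → ∀ t ∈ T, w t = w' t) :
    (E fun u : Fin N → Bool => E fun s : Fin (N / 4) → Bool => E fun x : Fin p × Fin m → Bool =>
      if P (wordOf2 N p m u s x) then (0 : ℝ) else 1) ≤ (1 / 2) ^ T.card := by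
  by_cases hex : ∃ u s x, ¬ P (wordOf2 N p m u s x)
  · obtain ⟨u0, s0, x0, h0⟩ := hex
    set As : Finset (Fin (N / 4)) := univ.filter fun d => posS d ∈ T with hAs
    set Ax : Finset (Fin p × Fin m) := univ.filter fun v => posX hpm v ∈ T with hAx
    set Au : Finset (Fin N) :=
      T.filter fun t => (∀ d, posS d ≠ t) ∧ ∀ v : Fin p × Fin m, posX hpm v ≠ t with hAu
    have hcov : T ⊆ Au ∪ (As.image posS ∪ Ax.image (posX hpm)) := by
      intro t ht
      by_cases h1 : ∃ d, posS d = t
      · obtain ⟨d, rfl⟩ := h1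
        exact mem_union_right _ (mem_union_left _ (mem_image_of_mem _
          (mem_filter.2 ⟨mem_univ _, ht⟩)))
      · by_cases h2 : ∃ v : Fin p × Fin m, posX hpm v = t
        · obtain ⟨v, rfl⟩ := h2
          exact mem_union_right _ (mem_union_right _ (mem_image_of_mem _
            (mem_filter.2 ⟨mem_univ _, ht⟩)))
        · push Not at h1 h2
          exact mem_union_left _ (mem_filter.2 ⟨ht, h1, h2⟩)
    have hcard : T.card ≤ Au.card + (As.card + Ax.card) :=
      (card_le_card hcov).trans ((card_union_le _ _).trans (Nat.add_le_add_left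
        ((card_union_le _ _).trans (Nat.add_le_add card_image_le card_image_le)) _))
    have hle : ∀ (u : Fin N → Bool) (s : Fin (N / 4) → Bool) (x : Fin p × Fin m → Bool),
        (if P (wordOf2 N p m u s x) then (0 : ℝ) else 1) ≤
          (if ∀ t ∈ Au, u t = u0 t then (1 : ℝ) else 0) *
            ((if ∀ d ∈ As, s d = s0 d then (1 : ℝ) else 0) *
              (if ∀ v ∈ Ax, x v = x0 v then (1 : ℝ) else 0)) := by
      intro u s x
      by_cases hPw : P (wordOf2 N p m u s x)
      · rw [if_pos hPw]
        positivity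
      · rw [if_neg hPw]
        have hag := hP _ _ hPw h0
        rw [if_pos, if_pos, if_pos]
        · norm_num
        · intro v hv
          have hv' := (mem_filter.1 hv).2
          have h1 := hag _ hv'
          rwa [wordOf2_x hpm u s x v (hT _ hv'), wordOf2_x hpm u0 s0 x0 v (hT _ hv')] at h1
        · intro d hd
          have hd' := (mem_filter.1 hd).2
          have h1 := hag _ hd'
          rwa [wordOf2_s u s x d (hT _ hd'), wordOf2_s u0 s0 x0 d (hT _ hd')] at h1
        · intro t ht
          obtain ⟨ht', h1, h2⟩ := mem_filter.1 ht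
          have h3 := hag _ ht'
          rwa [wordOf2_u hpm u s x t (hT _ ht') h1 h2,
            wordOf2_u hpm u0 s0 x0 t (hT _ ht') h1 h2] at h3
    refine (E_mono fun u => E_mono fun s => E_mono fun x => hle u s x).trans ?_
    have e1 : (E fun u : Fin N → Bool => if ∀ t ∈ Au, u t = u0 t then (1 : ℝ) else 0) =
        (1 / 2) ^ Au.card := by
      convert E_agree Au u0
    have e2 : (E fun s : Fin (N / 4) → Bool => if ∀ d ∈ As, s d = s0 d then (1 : ℝ) else 0) =
        (1 / 2) ^ As.card := by
      convert E_agree As s0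
    have e3 : (E fun x : Fin p × Fin m → Bool => if ∀ v ∈ Ax, x v = x0 v then (1 : ℝ) else 0) =
        (1 / 2) ^ Ax.card := by
      convert E_agree Ax x0
    rw [E_three, e1, e2, e3, ← pow_add, ← pow_add]
    exact pow_le_pow_of_le_one (by norm_num) (by norm_num) hcard
  · push Not at hex
    have h1 : (E fun u : Fin N → Bool => E fun s : Fin (N / 4) → Bool =>
        E fun x : Fin p × Fin m → Bool =>
          if P (wordOf2 N p m u s x) then (0 : ℝ) else 1) = 0 := by
      have h2 : (fun u : Fin N → Bool => E fun s : Fin (N / 4) → Bool =>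
          E fun x : Fin p × Fin m → Bool =>
            if P (wordOf2 N p m u s x) then (0 : ℝ) else 1) = fun _ => (0 : ℝ) := by
        funext u
        have h3 : (fun s : Fin (N / 4) → Bool => E fun x : Fin p × Fin m → Bool =>
            if P (wordOf2 N p m u s x) then (0 : ℝ) else 1) = fun _ => (0 : ℝ) := by
          funext s
          have h4 : (fun x : Fin p × Fin m → Bool =>
              if P (wordOf2 N p m u s x) then (0 : ℝ) else 1) = fun _ => (0 : ℝ) := by
            funext x
            rw [if_pos (hex u s x)]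
          rw [h4, E_const]
        rw [h3, E_const]
      rw [h2, E_const]
    rw [h1]
    positivity

open Classical in
/-- A bottom gate which reads at least `R` variables is false on a random word with probability
at most `2 ^ -(R - Nat.size N)`. -/
theorem wide_prob {N p m : ℕ} (hpm : p * m ≤ N / 4) (C : Circuit N) (R : ℕ) (b : Fin C.bottom)
    (hb : (R : ℕ∞) ≤ (C.vars b).encard) :
    (E fun u : Fin N → Bool => E fun s : Fin (N / 4) → Bool => E fun x : Fin p × Fin m → Bool =>
      if (∃ l ∈ C.lits b, l.eval (wordOf2 N p m u s x) = true) then (0 : ℝ) else 1)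
      ≤ (1 / 2) ^ (R - Nat.size N) := by
  set T : Finset (Fin N) :=
    univ.filter fun v => v ∈ C.vars b ∧ ¬ (v : ℕ) < Nat.size N with hT
  have h1 := prob_le hpm (fun w : Fin N → Bool => ∃ l ∈ C.lits b, l.eval w = true) T
    (fun t ht => (mem_filter.1 ht).2.2) (by
      intro w w' hw hw' t ht
      obtain ⟨l, hl, hlt⟩ := (mem_filter.1 ht).2.1
      push Not at hw hw'
      exact eq_of_reads l hlt (hw l hl) (hw' l hl))
  refine h1.trans (pow_le_pow_of_le_one (by norm_num) (by norm_num) ?_)
  have h2 : C.vars b = ((univ.filter fun v => v ∈ C.vars b : Finset (Fin N)) : Set (Fin N)) := by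
    ext v
    simp
  rw [h2, Set.encard_coe_eq_coe_finsetCard] at hb
  have h3 : R ≤ (univ.filter fun v => v ∈ C.vars b : Finset (Fin N)).card := by
    exact_mod_cast hb
  have h4 : (univ.filter fun v => v ∈ C.vars b : Finset (Fin N)) ⊆
      T ∪ univ.filter fun v : Fin N => (v : ℕ) < Nat.size N := by
    intro v hv
    by_cases h5 : (v : ℕ) < Nat.size N
    · exact mem_union_right _ (mem_filter.2 ⟨mem_univ _, h5⟩)
    · exact mem_union_left _ (mem_filter.2 ⟨mem_univ _, (mem_filter.1 hv).2, h5⟩)
  have h5 : (univ.filter fun v : Fin N => (v : ℕ) < Nat.size N).card ≤ Nat.size N := by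
    have h6 : (univ.filter fun v : Fin N => (v : ℕ) < Nat.size N).card ≤
        (range (Nat.size N)).card := by
      refine card_le_card_of_injOn (fun v => (v : ℕ)) ?_ ?_
      · intro v hv
        have hv' : v ∈ univ.filter fun v : Fin N => (v : ℕ) < Nat.size N := hv
        exact mem_coe.2 (mem_range.2 (mem_filter.1 hv').2)
      · exact fun a _ b _ h => Fin.ext h
    rwa [card_range] at h6
  have h6 := (card_le_card h4).trans (card_union_le _ _)
  omega

end Vale.Agent.P336.R2.H81
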